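import Vale.Agent.P011UGA.IF3
import Vale.Agent.P011US.Sub
import Vale.Agent.P011UB.Root

/-!
Normal subgroups of a Levi subgroup.
-/

set_option autoImplicit false
set_option linter.all false

namespace Vale.Agent.P011US5

open Vale.Agent.P011L Vale.Agent.P183CH Vale.Agent.P011U Vale.Agent.P011UGA

section

variable {R : RS} {K G : Type} [Field K] [Group G] {Γ : RG R K G} (hΓ : Γ.Ok) (hR : R.Ok)
  {J : Set (Fin R.r)} {M : Subgroup G} (hM : ∀ l ∈ Γ.GJ J, ∀ g ∈ M, l * g * l⁻¹ ∈ M)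
include hΓ hM

theorem x_of {γ : R.Q} (hγ : γ ∈ R.Φ) (hJ : R.In J γ) {s : Fin R.r → Kˣ} (hs : hΓ.hT s ∈ M)
    (h : RG.chi0 R K γ s ≠ 1) (t : K) : Γ.x γ t ∈ M := by
  have h0 : (RG.chi0 R K γ s : K) - 1 ≠ 0 := fun e => h (Units.ext (sub_eq_zero.1 e))
  obtain ⟨u, rfl⟩ : ∃ u, t = RG.chi0 R K γ s * u + -u :=
    ⟨((RG.chi0 R K γ s : K) - 1)⁻¹ * t, by field_simp; ring⟩
  have := mul_mem hs (hM (Γ.x γ u) (Subgroup.mem_sup_left (RG.x_mem hγ hJ _)) _ (inv_mem hs))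
  rwa [hΓ.add γ hγ, hΓ.x_neg hγ, ← hΓ.hT_x s hγ, mul_assoc, mul_assoc, ← mul_assoc (Γ.x γ u)]

include hR

theorem x_pm {i : Fin R.r} (hi : i ∈ J) {s : Fin R.r → Kˣ} (hs : hΓ.hT s ∈ M)
    (h : RG.chi0 R K (R.α i) s ≠ 1) (t : K) : Γ.x (R.α i) t ∈ M ∧ Γ.x (-R.α i) t ∈ M :=
  ⟨x_of hΓ hM (hR.simple i) (RS.In_α hi) hs h t,
    x_of hΓ hM (hR.neg_mem (hR.simple i)) (RS.In_α hi).neg hs (fun e => h (by
      rw [RG.chi0_apply] at e ⊢
      simpa only [RS.pr_neg, zpow_neg, Finset.prod_inv_distrib, inv_eq_one] using e)) t⟩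

theorem lj_abs [Infinite K] (hJ : Cn R J) {i : Fin R.r} (hi : i ∈ J) {s : Fin R.r → Kˣ}
    (hs : hΓ.hT s ∈ M) (h : RG.chi0 R K (R.α i) s ≠ 1) : LJ Γ J ≤ M := by
  rw [LJ_eq hR hΓ, Subgroup.closure_le]
  have key := fun j hj => hJ (fun j => ∀ t, Γ.x (R.α j) t ∈ M ∧ Γ.x (-R.α j) t ∈ M) i hi j hj
    (x_pm hΓ hR hM hi hs h) fun a _ b hb p e => by
      obtain ⟨t, ht⟩ := not_forall.1 (mt (P011UB.zpow_eq (k := K)) e)
      refine x_pm hΓ hR hM hb (s := Pi.mulSingle a t) ?_ (by rwa [RG.chi0_single, RS.pr_α])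
      rw [hΓ.hT_single, ← mul_inv_eq_iff_eq_mul.2 (hΓ.sl a t).symm.symm]
      exact mul_mem (mul_mem (mul_mem (p _).1 (p _).2) (p _).1)
        (inv_mem (mul_mem (mul_mem (p _).1 (p _).2) (p _).1))
  rintro _ ⟨j, hj, t, rfl | rfl⟩
  · exact (key j hj t).1
  · exact (key j hj t).2

end

/-- A subgroup normalised by the Levi subgroup which contains a noncentral element of the torus
contains the derived group. -/
theorem lj_le {D : Chev} {K : Type} [Field K] [Infinite K] {J : Set (Fin D.R.r)} (hJ : Cn D.R J)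
    (M : Subgroup (D.grp K)) (hM : ∀ l ∈ (GG D K).GJ J, ∀ g ∈ M, l * g * l⁻¹ ∈ M)
    {τ : Fin D.R.r → Kˣ} (ht : hT D K τ ∈ M) {i : Fin D.R.r} (hi : i ∈ J)
    (h : rv τ (D.R.α i) ≠ 1) : LJ (GG D K) J ≤ M :=
  lj_abs GG_ok (Chev.R_ok D) hM hJ hi ht h

end Vale.Agent.P011US5
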