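import Vale.Agent.P011UT4.Kit
import Vale.Agent.P011UTS.Main
import Vale.Agent.P011UC.Main
import Vale.Agent.P011UNC.Nc
import Vale.Agent.P092TO.BL

/-!
A noncentral normal subgroup spans the endomorphisms of the Lie algebra.
-/

set_option autoImplicit false
set_option linter.all false

namespace Vale.Agent.P011US5

open Matrix Vale.Agent.P011L Vale.Agent.P183CH Vale.Agent.P183CH.Chev Vale.Agent.P011U
  Vale.Agent.P011UT4 Vale.Agent.P011UTS Vale.Agent.P011UH

attribute [local instance 100] LieRing.ofAssociativeRing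

/-- Burnside's theorem for matrices -/
theorem span_top {K Z m : Type} [Field K] [IsAlgClosed K] [Monoid Z] [Fintype m] [DecidableEq m]
    (ρ : Z →* Matrix m m K)
    (h : ∀ W : Submodule K (m → K), (∀ z, ∀ v ∈ W, ρ z *ᵥ v ∈ W) → W = ⊥ ∨ W = ⊤) :
    Submodule.span K (Set.range ρ) = ⊤ := by
  have h2 := P092TO.burnside
    ((Matrix.toLinAlgEquiv' (R := K) (n := m)).toMonoidHom.comp ρ) h
  refine eq_top_iff.2 fun a _ => ?_
  have h3 : Matrix.toLin' a ∈ (Submodule.span K (Set.range ρ)).map Matrix.toLin'.toLinearMap := by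
    rw [Submodule.map_span, ← Set.range_comp]
    exact h2.ge trivial
  obtain ⟨b, hb, e⟩ := h3
  exact Matrix.toLin'.injective e ▸ hb

variable {D : Chev} {K : Type} [Field K] {m : ℕ}

/-- central elements act trivially on the Lie algebra -/
theorem ad_cent [Infinite K] {z : D.grp K} (h : ∀ g, z * g = g * z) :
    ∀ X ∈ gg D K, Ad z.1 X = X := by
  let W : Submodule K (D.Mat K) := LinearMap.eqLocus (Ad z.1) LinearMap.id
  have h1 : ∀ γ, D.IsRt γ → ct K (D.EE γ 1) ∈ W := fun γ r => by
    by_cases hn : 1 < D.n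
    · refine P011UC.coef_mem W D.n (fun l => ct K (D.EE γ l)) (fun t => ?_) hn
      have e := congrArg (fun g : D.grp K => g.1.1)
        (mul_inv_eq_iff_eq_mul.2 (h ((GG D K).x γ t)))
      have e' : ((GG D K).x γ t).1.1 = ex (D.EE γ) t := congrArg Units.val (GG_x r t)
      show ex (D.EE γ) t ∈ W
      exact e' ▸ e
    · rw [r.rh.dp.van (not_lt.1 hn), map_zero]
      exact zero_mem _
  refine (Submodule.span_le (p := W)).2 ?_
  rintro _ (⟨γ, hγ, -, rfl⟩ | ⟨i, rfl⟩)
  · exact h1 γ (mem_Φ.1 hγ)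
  · have a : Ad z.1 _ = _ := h1 _ (rt_simple i).1.rt
    have b : Ad z.1 _ = _ := h1 _ (rt_simple i).2.1.rt
    rw [EE_e] at a
    rw [EE_f] at b
    show Ad z.1 _ = _
    rw [← ef, Ring.lie_def, map_sub, map_mul, map_mul, map_sub, Ad_mul', Ad_mul', a, b]
    rfl

section

variable {b : Fin m → D.Mat K} {ρ : D.grp K →* Matrix (Fin m) (Fin m) K}

theorem rp_irr (irr : IRR) (hK : Nonempty (K →+* ℂ)) (hb : Bs b) (hρ : Rp b ρ)
    (W : Submodule K (Fin m → K)) (h : ∀ z, ∀ v ∈ W, ρ z *ᵥ v ∈ W) : W = ⊥ ∨ W = ⊤ := by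
  refine ((irr D K hK).2 (W.map (P011UT4.co b)) (hb.range ▸ LinearMap.map_le_range)
    (.inr ?_)).imp (fun e => Submodule.map_injective_of_injective hb.inj ?_)
      fun e => Submodule.map_injective_of_injective hb.inj ?_
  · rintro g _ ⟨v, hv, rfl⟩
    exact ⟨_, h g v hv, (hρ.co g v).symm⟩
  · rw [e, Submodule.map_bot]
  · rw [e, Submodule.map_top, hb.range]

theorem pf_lin {Y : D.grp K → D.Mat K} (h : Ent (PF D K) Y) (φ : D.Mat K →ₗ[K] K) :
    (fun g => φ (Y g)) ∈ PF D K := by
  have : (fun g => φ (Y g)) = ∑ a, ∑ c, φ (single a c 1) • fun g => Y g a c := funext fun g => by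
    conv_lhs => rw [matrix_eq_sum_single (Y g)]
    simp only [map_sum, Finset.sum_apply, Pi.smul_apply, smul_eq_mul]
    refine Finset.sum_congr rfl fun a _ => Finset.sum_congr rfl fun c _ => ?_
    rw [mul_comm, ← smul_eq_mul, ← map_smul, smul_single, smul_eq_mul, mul_one]
  rw [this]
  exact sum_mem fun a _ => sum_mem fun c _ => Subalgebra.smul_mem _ (h a c) _

theorem rp_ent (hb : LinearIndependent K b) (hρ : Rp b ρ) : Ent (PF D K) fun g => ρ g := by
  obtain ⟨L, hL⟩ := (Fintype.linearCombination K b).exists_leftInverse_of_injective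
    (LinearMap.ker_eq_bot.2 hb.fintypeLinearCombination_injective)
  intro i j
  have : (fun g : D.grp K => ρ g i j) =
      fun g => ((LinearMap.proj i).comp L) (g.1.1 * b j * g⁻¹.1.1) := funext fun g => by
    have e := LinearMap.congr_fun hL fun i => ρ g i j
    rw [LinearMap.comp_apply, Fintype.linearCombination_apply, ← hρ g j] at e
    exact (congrFun e i).symm
  exact this ▸ pf_lin ((pf_id.mul (ent_const _)).mul pf_inv) _

end

/-- Burnside's theorem for a noncentral normal subgroup. -/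
theorem spn (irr : IRR) : SPN := by
  intro k K _ _ _ _ _ D hD T F m b M ρ r h N hN ⟨n, hn, hn1⟩
  haveI : CharZero K := charZero_of_injective_algebraMap (algebraMap k K).injective
  haveI : IsAlgClosed K := by
    haveI := IsSepClosure.sep_closed k (K := K)
    exact IsSepClosed.isAlgClosed_of_perfectField K
  have hK : Nonempty (K →+* ℂ) := by
    obtain ⟨f⟩ : Nonempty (k →+* ℂ) := inferInstance
    letI := f.toAlgebra
    exact ⟨(IsAlgClosed.lift : K →ₐ[k] ℂ)⟩
  have hb := (bs_map (algebraMap F K) b).2 h.bs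
  have hc : ¬N ≤ Subgroup.center T.fix := fun c => hn1 (map_injective (algebraMap k K).injective (by
    show (r n).map _ = (1 : Matrix _ _ k).map _
    rw [h.rr, Matrix.map_one _ (map_zero _) (map_one _)]
    exact mat_ext hb fun y => by
      rw [← h.rp.co, one_mulVec,
        ad_cent (P011UNC.cent_of T (P011UC.den0 k K D hD T) (c hn)) _ (hb.mem y)]))
  by_contra ht
  obtain ⟨ψ, h1, h2⟩ := Submodule.exists_le_ker_of_lt_top _ (lt_top_iff_ne_top.2 ht)
  let φ : Matrix (Fin m) (Fin m) K →ₗ[K] K :=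
    ∑ i, ∑ j, algebraMap k K (ψ (single i j 1)) • entryLinearMap K K i j
  have e : ∀ X : Matrix (Fin m) (Fin m) K,
      φ X = ∑ i, ∑ j, algebraMap k K (ψ (single i j 1)) * X i j := fun X => by
    simp only [φ, LinearMap.sum_apply]
    rfl
  have e' : ∀ X : Matrix (Fin m) (Fin m) k, φ (X.map (algebraMap k K)) = algebraMap k K (ψ X) :=
    fun X => by
      conv_rhs => rw [matrix_eq_sum_single X]
      simp only [e, map_sum, map_apply, ← map_mul]
      refine Finset.sum_congr rfl fun a _ => Finset.sum_congr rfl fun c _ => congrArg _ ?_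
      rw [mul_comm, ← smul_eq_mul, ← map_smul, smul_single, smul_eq_mul, mul_one]
  have h3 : (fun g => φ (ρ g)) ∈ PF D K := by
    have : (fun g => φ (ρ g)) = ∑ i, ∑ j, algebraMap k K (ψ (single i j 1)) • fun g => ρ g i j :=
      funext fun g => by simp only [e, Finset.sum_apply, Pi.smul_apply, smul_eq_mul]
    rw [this]
    exact sum_mem fun a _ => sum_mem fun c _ => Subalgebra.smul_mem _ (rp_ent hb.1 h.rp a c) _
  have h4 : Submodule.span K (Set.range ρ) ≤ LinearMap.ker φ := Submodule.span_le.2 (by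
    rintro _ ⟨g, rfl⟩
    by_contra c
    obtain ⟨x, hx, c'⟩ := dense_normal (den_pf P011UC.den0 hD) hN hc h3 (a := g) c
    refine c' ?_
    rw [← h.rr, e', show ψ (r x) = 0 from h2 (Submodule.subset_span ⟨x, hx, rfl⟩), map_zero])
  rw [span_top ρ (rp_irr irr hK hb h.rp)] at h4
  exact h1 (LinearMap.ext fun X => (algebraMap k K).injective (by
    rw [← e', show φ _ = 0 from h4 trivial, LinearMap.zero_apply, map_zero]))

end Vale.Agent.P011US5
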