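import Vale.Agent.P011UGA.IF3
import Vale.Agent.P011US5.Spn

/-!
The maximal rank argument.
-/

set_option autoImplicit false
set_option linter.all false

namespace Vale.Agent.P011US5

open Matrix Module Vale.Agent.P011L Vale.Agent.P183CH Vale.Agent.P183CH.Chev Vale.Agent.P011U
  Vale.Agent.P011UTS Vale.Agent.P011UH Vale.Agent.P011UGA

section

variable {K Ω V V' : Type} [Field K] [AddCommGroup V] [Module K V] [FiniteDimensional K V]
  [AddCommGroup V'] [Module K V'] (S : Subalgebra K (Ω → K))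

/-- the rank is lower semicontinuous -/
theorem rank_open (F : Ω → V →ₗ[K] V') (hF : ∀ (φ : V' →ₗ[K] K) v, (fun x => φ (F x v)) ∈ S)
    (a : Ω) : ∃ f ∈ S, f a ≠ 0 ∧ ∀ x, f x ≠ 0 →
      finrank K (LinearMap.range (F a)) ≤ finrank K (LinearMap.range (F x)) := by
  let b := finBasis K (LinearMap.range (F a))
  choose v hv using fun i => (b i).2
  have h1 : LinearIndependent K fun i => F a (v i) := by
    simp only [hv]
    exact b.linearIndependent.map' _ (Submodule.ker_subtype _)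
  obtain ⟨L, hL⟩ := (Fintype.linearCombination K _).exists_leftInverse_of_injective
    (LinearMap.ker_eq_bot.2 h1.fintypeLinearCombination_injective)
  let X : Matrix _ _ S := of fun i j => ⟨_, hF ((LinearMap.proj i).comp L) (v j)⟩
  have e : ∀ x, X.det.1 x = (of fun i j => L (F x (v j)) i).det := fun x =>
    ((Pi.evalRingHom _ x).comp S.val.toRingHom).map_det X
  refine ⟨_, X.det.2, ?_, fun x hx => ?_⟩
  · have : (of fun i j => L (F a (v j)) i) = 1 := Matrix.ext fun i j => by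
      have := LinearMap.congr_fun hL (Pi.single j 1)
      rw [LinearMap.comp_apply, Fintype.linearCombination_apply_single, one_smul] at this
      rw [of_apply, this, one_apply, LinearMap.id_apply, Pi.single_apply]
    rw [e, this, det_one]
    exact one_ne_zero
  · rw [e] at hx
    have h2 : LinearIndependent K fun j => (⟨F x (v j), v j, rfl⟩ : LinearMap.range (F x)) :=
      .of_comp (L.comp (Submodule.subtype _)) (linearIndependent_cols_of_det_ne_zero hx)
    simpa using h2.fintype_card_le_finrank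

/-- the dimension of the kernel is upper semicontinuous -/
theorem ker_open (W : Submodule K V) (F : Ω → V →ₗ[K] V')
    (hF : ∀ (φ : V' →ₗ[K] K) v, (fun x => φ (F x v)) ∈ S) (a : Ω) :
    ∃ f ∈ S, f a ≠ 0 ∧ ∀ x, f x ≠ 0 → finrank K (W ⊓ LinearMap.ker (F x) : Submodule K V) ≤
      finrank K (W ⊓ LinearMap.ker (F a) : Submodule K V) := by
  obtain ⟨f, h1, h2, h3⟩ := rank_open S (fun x => (F x).comp W.subtype) (fun φ v => hF φ v) a
  have e : ∀ x, finrank K (LinearMap.range ((F x).comp W.subtype)) +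
      finrank K (W ⊓ LinearMap.ker (F x) : Submodule K V) = finrank K W := fun x => by
    rw [← ((F x).comp W.subtype).finrank_range_add_finrank_ker, LinearMap.ker_comp,
      ← Submodule.map_comap_subtype, Submodule.finrank_map_subtype_eq]
  refine ⟨f, h1, h2, fun x hx => ?_⟩
  have := h3 x hx
  have := e x
  have := e a
  omega

end

variable {D : Chev} {k K : Type} [Field k] [Field K] [Algebra k K] {T : Tw k (D.grp K)}

theorem dense_nm [Infinite K] (den : ∀ f ∈ PF D K, (∀ x ∈ T.fix, f x = 0) → ∀ g, f g = 0)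
    {N : Subgroup (D.grp K)} (hN : Nm T N) (hc : Nc T N) {f : D.grp K → K} (hf : f ∈ PF D K)
    {a : D.grp K} (ha : f a ≠ 0) : ∃ x ∈ N, f x ≠ 0 := by
  obtain ⟨n, hn, g, hg, e⟩ := hc
  obtain ⟨x, h1, h2⟩ := dense_normal den (N := N.subgroupOf T.fix)
    ⟨fun x hx g => hN.2 g g.2 x hx⟩ (fun c => e (congrArg Subtype.val
      (Subgroup.mem_center_iff.1 (c (x := ⟨n, hN.1 hn⟩) hn) ⟨g, hg⟩)).symm) hf ha
  exact ⟨x, h1, h2⟩

/-- The kernels at an element of maximal rank. -/
theorem ker_le [Infinite k] [IsSepClosure k K] (hD : SC D) {N : Subgroup (D.grp K)} (hN : Nm T N)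
    (hc : Nc T N) (J : Set (Fin D.R.r)) (γ : D.grp K)
    (h : ∀ n ∈ N, ∀ X ∈ P011UC.lie D K J, Ad (n * γ * n⁻¹).1 X = X → Ad γ.1 X = X) :
    ∃ n ∈ N, ∀ l ∈ (GG D K).GJ J, ∀ X ∈ P011UC.lie D K J, Ad (n * γ * n⁻¹).1 X = X →
      Ad γ.1 (Ad l.1 X) = Ad l.1 X := by
  classical
  haveI : Infinite K := .of_injective _ (algebraMap k K).injective
  let A : D.grp K → D.Mat K →ₗ[K] D.Mat K := fun g => Ad g.1 - LinearMap.id
  have hA : ∀ g X, X ∈ LinearMap.ker (A g) ↔ Ad g.1 X = X := fun g X => sub_eq_zero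
  let d : D.grp K → ℕ := fun g =>
    finrank K (P011UC.lie D K J ⊓ LinearMap.ker (A (g * γ * g⁻¹)) : Submodule K _)
  obtain ⟨n, hn, h0⟩ := (measure d).wf.has_min (N : Set _) ⟨1, one_mem N⟩
  refine ⟨n, hn, fun l hl X hX e => ?_⟩
  have hl' := P011UC.lie_ok D K J GG_ok
  obtain ⟨f, h1, h2, h3⟩ := ker_open (PF D K) (P011UC.lie D K J)
    (fun g => (A (g * γ * g⁻¹)).prod (A γ)) (fun φ v => by
      have := pf_lin (Y := fun g => (g * γ * g⁻¹).1.1 * v * (g * γ⁻¹ * g⁻¹).1.1)
        ((((pf_id.mul (ent_const γ.1.1)).mul pf_inv).mul (ent_const v)).mul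
          ((pf_id.mul (ent_const γ⁻¹.1.1)).mul pf_inv)) (φ.comp (LinearMap.inl K _ _))
      refine (congrArg (· ∈ PF D K) (funext fun g => ?_)).mpr
        (add_mem this ((PF D K).algebraMap_mem (φ (-v, A γ v))))
      show φ _ = φ _ + φ _
      rw [← map_add, ← conj_inv]
      exact congrArg φ (Prod.ext (sub_eq_add_neg _ _) (zero_add _).symm)) (l * n)
  obtain ⟨x, hx, h4⟩ := dense_nm (den_pf P011UC.den0 hD) hN hc h1 h2
  have h5 := h3 x h4
  rw [LinearMap.ker_prod, LinearMap.ker_prod, ← inf_assoc, ← inf_assoc, inf_eq_left.2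
    fun X hX => (hA _ _).2 (h x hx X hX.1 ((hA _ _).1 hX.2))] at h5
  have h6 : d (l * n) ≤ d n := (Submodule.finrank_mono
    (s := P011UC.lie D K J ⊓ LinearMap.ker (A (l * n * γ * (l * n)⁻¹))) (t := Submodule.map (Ad l.1)
    (P011UC.lie D K J ⊓ LinearMap.ker (A (n * γ * n⁻¹)))) fun Y hY => ⟨Ad l⁻¹.1 Y, ⟨hl' _ (inv_mem hl) Y hY.1, (hA _ _).2 (by
      conv_rhs => rw [← (hA _ _).1 hY.2]
      rw [← Ad_mul, ← Ad_mul, ← Subgroup.coe_mul, ← Subgroup.coe_mul]
      congr 3
      group)⟩, Ad_inv _ _⟩).trans (Submodule.finrank_map_le _ _)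
  have h7 := Submodule.eq_of_le_of_finrank_le inf_le_left
    (h6.trans ((not_lt.1 (h0 x hx)).trans h5))
  refine (hA _ _).1 (h7.ge ⟨hl' l hl X hX, (hA _ _).2 ?_⟩).2
  conv_rhs => rw [← e]
  rw [← Ad_mul, ← Ad_mul, ← Subgroup.coe_mul, ← Subgroup.coe_mul]
  congr 3
  group

end Vale.Agent.P011US5
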