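import Vale.Agent.P011US5.Rk
import Vale.Agent.P011US5.Nrm
import Vale.Agent.P011UKY.Key

/-!
The rank argument.
-/

set_option autoImplicit false
set_option linter.all false

namespace Vale.Agent.P011US5

open Matrix Module Vale.Agent.P011L Vale.Agent.P183CH Vale.Agent.P183CH.Chev Vale.Agent.P011U
  Vale.Agent.P011UC Vale.Agent.P011UGA Vale.Agent.P011UKY

variable {D : Chev} {K : Type} [Field K]

/-- the elements which fix the orbit of `X` -/
def Fx (J : Set (Fin D.R.r)) (X : D.Mat K) : Subgroup (D.grp K) where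
  carrier := {g | ∀ l ∈ (GG D K).GJ J, Ad g.1 (Ad l.1 X) = Ad l.1 X}
  mul_mem' {a b} ha hb l hl := by rw [Ad_mm, hb l hl, ha l hl]
  one_mem' l _ := by simp [Ad_apply]
  inv_mem' {a} ha l hl := by
    conv_lhs => rw [← ha l hl]
    exact Ad_inv a⁻¹.1 _

theorem fx_nm {J : Set (Fin D.R.r)} (X : D.Mat K) :
    ∀ l ∈ (GG D K).GJ J, ∀ g ∈ Fx J X, l * g * l⁻¹ ∈ Fx J X := fun l hl g hg l' hl' => by
  rw [Ad_mm, Ad_mm, ← Ad_mm l⁻¹, hg _ (mul_mem (inv_mem hl) hl'), ← Ad_mm, mul_inv_cancel_left]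

/-- The rank argument. -/
theorem rnk (lka : LKA) (dim : DIM) (fxl : FXL) : RNK := by
  intro k K _ _ _ _ _ D hD T hk j hJ τ hτ ⟨i, hi, hr⟩ hcard N hN hc hz h
  classical
  haveI : CharZero K := charZero_of_injective_algebraMap (algebraMap k K).injective
  haveI : IsAlgClosed K := by
    haveI := IsSepClosure.sep_closed k (K := K)
    exact IsSepClosed.isAlgClosed_of_perfectField K
  obtain ⟨-, -, l3, -, l5, l6, l7, l8⟩ := lka D hD K
  obtain ⟨n, hn, H⟩ := ker_le hD hN hc _ _ h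
  have hR := R_ok D
  have a1 : ∀ X ∈ lie D K {i | i ≠ j}, Ad (n * hT D K τ * n⁻¹).1 X = X → ∀ δ ∈ D.R.Φ,
      D.R.In {i | i ≠ j} δ → Commute X (ee D K δ) := fun X hX e δ h1 h2 =>
    (l3 δ h1 X).2 fun t => (Ad_fix.1 (by
      simpa [Ad_apply] using lj_le hJ (Fx _ X) (fx_nm X) (fun l hl => H l hl X hX e) hi hr
        (RG.x_mem h1 h2 t) 1 (one_mem _))).symm
  obtain ⟨X, hX, e, h0⟩ : ∃ X ∈ lie D K {i | i ≠ j}, Ad (n * hT D K τ * n⁻¹).1 X = X ∧ X ≠ 0 := by
    by_contra c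
    push Not at c
    let f := (Ad (n * hT D K τ * n⁻¹).1 - LinearMap.id).comp (lie D K {i | i ≠ j}).subtype
    let S := (D.R.Φ.filter fun γ => rv τ γ ≠ 1).image (ee D K)
    have b1 : lg D K ≤ (Submodule.span K (S : Set (D.Mat K))).comap
        (Ad (hT D K τ).1 - LinearMap.id) := Submodule.span_le.2 (by
      rintro _ (⟨γ, hγ, -, rfl⟩ | ⟨i, rfl⟩)
      · show Ad _ (ee D K γ) - ee D K γ ∈ Submodule.span K (S : Set (D.Mat K))
        rw [(l8 τ).2.1 γ hγ]
        by_cases e : rv τ γ = 1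
        · rw [e, Units.val_one, one_smul, sub_self]
          exact zero_mem _
        · have : ee D K γ ∈ Submodule.span K (S : Set (D.Mat K)) := Submodule.subset_span
            (Finset.mem_image_of_mem _ (Finset.mem_filter.2 ⟨hγ, e⟩))
          exact sub_mem (Submodule.smul_mem _ _ this) this
      · show Ad _ _ - ct K (D.hm i) ∈ Submodule.span K (S : Set (D.Mat K))
        rw [(l8 τ).1, sub_self]
        exact zero_mem _)
    have b2 : LinearMap.range f ≤ (Submodule.span K (S : Set (D.Mat K))).map (Ad n.1) := by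
      rintro _ ⟨Y, rfl⟩
      refine ⟨_, b1 (P011UT4.ad_gg n⁻¹ (lie_le _ Y.2)), ?_⟩
      rw [LinearMap.sub_apply, map_sub, ← Ad_mm, ← Ad_mm]
      exact congrArg _ (Ad_inv n.1 _)
    have b3 := LinearMap.finrank_range_of_inj (f := f) (LinearMap.ker_eq_bot.1
      (eq_bot_iff.2 fun Y hY => Subtype.ext (c Y Y.2 (sub_eq_zero.1 hY))))
    exact (hcard.trans_le ((dim D hD K _).trans b3.ge)).not_ge ((Submodule.finrank_mono b2).trans
      ((Submodule.finrank_map_le _ _).trans ((finrank_span_finset_le_card S).trans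
        Finset.card_image_le)))
  have a2 := ((fxl D hD K j).1 X hX (a1 X hX e)).2 h0 _ e
  have a3 : hT D K τ ∈ (GG D K).GJ {i | i ≠ j} := Subgroup.mem_sup_right (GG_ok.hT_mem τ)
  have a4 := hz (n * hT D K τ * n⁻¹ * (hT D K τ)⁻¹) (by
    simpa only [mul_assoc] using mul_mem hn (hN.2 _ hτ _ (inv_mem hn))) (mul_mem a2 (inv_mem a3))
  have a5 := dr_fix l3 a4 (dr_ee (hR.simple i) (RS.In_α hi))
  have a6 := dr_fix l3 a4 (dr_ee (hR.neg_mem (hR.simple i)) (RS.In_α hi).neg)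
  have a7 := a1 _ (lie_h i) (by
    rw [← inv_mul_cancel_right (n * hT D K τ * n⁻¹) (hT D K τ), Ad_mm, (l8 τ).1, ← l6, Ad_adM, a5,
      a6]) _ (hR.simple i) (RS.In_α hi)
  have a8 := l5 i _ (hR.simple i)
  rw [adM_apply, a7.eq, sub_self, RS.pr_α, hR.diag] at a8
  exact l7 _ (hR.simple i) ((smul_eq_zero.1 a8.symm).resolve_left (by norm_num))

end Vale.Agent.P011US5
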